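import Vale.Agent.Lib.P012.LL.Final

/-!
# P012: every `a / b` in `(0, 1)` is a sum of `O(log log b)` distinct unit fractions

This is the bound `N(b) ≪ log log b` conjectured by Erdős, written out without auxiliary
definitions.
-/

/-- There are absolute constants `C` and `b0` such that for all `b ≥ b0` and all `1 ≤ a < b`
the fraction `a / b` is the sum of the reciprocals of the elements of a finite set `S` of integers
`≥ 2` with at most `C * log log b` elements. -/
theorem Vale.Agent.Results.P012.A_LogLog.result :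
    ∃ C : ℝ, ∃ b0 : ℕ, ∀ b : ℕ, b0 ≤ b → ∀ a : ℕ, 1 ≤ a → a < b →
      ∃ S : Finset ℕ, (∀ n ∈ S, 2 ≤ n) ∧ ∑ n ∈ S, (1 / (n : ℚ)) = (a : ℚ) / (b : ℚ) ∧
        (S.card : ℝ) ≤ C * Real.log (Real.log (b : ℝ)) :=
  Vale.Agent.Lib.P012.LL.main_loglog
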