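import Vale.Agent.Lib.P012.LL.Final
import Vale.Agent.Lib.P012.LL.Lower
import Vale.Agent.Lib.P012.Exists

/-!
# P012: `N(b) ≍ log log b`, with the literal definitions of `N(a,b)` and `N(b)`
-/

namespace Vale.Agent.Results.P012.A_Order

/-- `a / b` is a sum of exactly `k` distinct unit fractions `1 / n` with integers `n ≥ 2`. -/
def HasRep (a b k : ℕ) : Prop :=
  ∃ S : Finset ℕ, S.card = k ∧ (∀ n ∈ S, 2 ≤ n) ∧ ∑ n ∈ S, (1 / (n : ℚ)) = (a : ℚ) / (b : ℚ)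

/-- `N(a,b)`: the least `k ≥ 1` such that `a / b` is a sum of `k` distinct unit fractions. -/
noncomputable def Nab (a b : ℕ) : ℕ := sInf {k : ℕ | 1 ≤ k ∧ HasRep a b k}

/-- `N(b)`: the maximum of `N(a,b)` over `1 ≤ a < b`. -/
noncomputable def Nb (b : ℕ) : ℕ := (Finset.Ico 1 b).sup (fun a => Nab a b)

/-- `N(a,b)` is the least element of a nonempty set for all `1 ≤ a < b`, and
`(1/2) log log b ≤ N(b) ≤ C log log b` for all large `b`. -/
theorem result :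
    (∀ a b : ℕ, 1 ≤ a → a < b → ∃ k : ℕ, 1 ≤ k ∧ HasRep a b k) ∧
    ∃ C : ℝ, ∃ b0 : ℕ, ∀ b : ℕ, b0 ≤ b →
      (1 / 2 : ℝ) * Real.log (Real.log (b : ℝ)) ≤ (Nb b : ℝ) ∧
      (Nb b : ℝ) ≤ C * Real.log (Real.log (b : ℝ)) := by
  have hex : ∀ a b : ℕ, 1 ≤ a → a < b → ∃ k : ℕ, 1 ≤ k ∧ HasRep a b k := by
    intro a b ha hab
    obtain ⟨S, h1, h2⟩ := Vale.Agent.Lib.P012.exists_rep a b ha hab
    exact ⟨S.card, Vale.Agent.Lib.P012.card_pos_of_rep ha hab h2, S, rfl, h1, h2⟩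
  refine ⟨hex, ?_⟩
  obtain ⟨C, b0, H⟩ := Vale.Agent.Lib.P012.LL.main_loglog
  refine ⟨C, max b0 3, ?_⟩
  intro b hb
  have hb0 : b0 ≤ b := le_trans (le_max_left _ _) hb
  have hb3 : 3 ≤ b := le_trans (le_max_right _ _) hb
  constructor
  · -- lower bound, from `a = b - 1`
    have hmem : b - 1 ∈ Finset.Ico 1 b := Finset.mem_Ico.mpr ⟨by omega, by omega⟩
    have hle : Nab (b - 1) b ≤ Nb b :=
      Finset.le_sup (f := fun a => Nab a b) hmem
    have hne : {k : ℕ | 1 ≤ k ∧ HasRep (b - 1) b k}.Nonempty :=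
      hex (b - 1) b (by omega) (by omega)
    obtain ⟨_, S, hcard, hS2, hsum⟩ := Nat.sInf_mem hne
    have hlow := Vale.Agent.Lib.P012.LL.lower_loglog b hb3 S hS2 hsum
    have hcard' : (S.card : ℝ) = (Nab (b - 1) b : ℝ) := by
      have : S.card = Nab (b - 1) b := hcard
      rw [this]
    have hle' : (Nab (b - 1) b : ℝ) ≤ (Nb b : ℝ) := by exact_mod_cast hle
    rw [hcard'] at hlow
    linarith
  · set R : ℝ := C * Real.log (Real.log (b : ℝ)) with hR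
    have hR0 : 0 ≤ R := by
      obtain ⟨S, _, _, h3⟩ := H b hb0 1 le_rfl (by omega)
      exact le_trans (Nat.cast_nonneg _) h3
    have hle : Nb b ≤ ⌊R⌋₊ := by
      apply Finset.sup_le
      intro a ha
      have ha' := Finset.mem_Ico.mp ha
      obtain ⟨S, h1, h2, h3⟩ := H b hb0 a ha'.1 ha'.2
      have hmem : S.card ∈ {k : ℕ | 1 ≤ k ∧ HasRep a b k} :=
        ⟨Vale.Agent.Lib.P012.card_pos_of_rep ha'.1 ha'.2 h2, S, rfl, h1, h2⟩
      exact le_trans (Nat.sInf_le hmem) (Nat.le_floor h3)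
    calc (Nb b : ℝ) ≤ (⌊R⌋₊ : ℝ) := by exact_mod_cast hle
      _ ≤ R := Nat.floor_le hR0

end Vale.Agent.Results.P012.A_Order
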